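import Vale.Agent.P281.H64.TS.Spec
import Vale.Agent.P267.H734.ParInt
import Mathlib.MeasureTheory.Integral.CurveIntegral.Poincare

/-!
# P281, project T-S (helper64), block A3 (helper352): the Poincaré lemma on open convex sets

Degree 1: the Mathlib Poincaré lemma for 1-forms. Degree 2: the radial homotopy operator
`b z = ∫ t in 0..1, t • a (x₀ + t (z - x₀)) (z - x₀)`, in any normed space (`poincare_two`).
-/

open Set Filter Metric MeasureTheory
open scoped Topology ContDiff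

noncomputable section

namespace Vale.Agent.P281.H352.TS

section
variable {E F : Type} [NormedAddCommGroup E] [NormedSpace ℝ E] [NormedAddCommGroup F]
  [NormedSpace ℝ F]

/-- The Poincaré lemma for 1-forms. -/
theorem poincare_one [CompleteSpace F] {C : Set E} (hC : IsOpen C) (hc : Convex ℝ C)
    {b : E → E →L[ℝ] F} (hb : ContDiffOn ℝ ∞ b C)
    (hd : ∀ z ∈ C, ∀ u v, fderiv ℝ b z u v = fderiv ℝ b z v u) :
    ∃ g : E → F, ContDiffOn ℝ ∞ g C ∧ ∀ z ∈ C, fderiv ℝ g z = b z := by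
  obtain ⟨g, hg⟩ := hc.exists_forall_hasFDerivAt_of_fderiv_symmetric hC
    (hb.differentiableOn (by simp)) hd
  refine ⟨g, ?_, fun z hz => (hg z hz).fderiv⟩
  rw [contDiffOn_infty_iff_fderiv_of_isOpen hC]
  exact ⟨fun z hz => (hg z hz).differentiableAt.differentiableWithinAt,
    hb.congr fun z hz => (hg z hz).fderiv⟩

theorem fderiv_integral_apply {P V : Type} [NormedAddCommGroup P] [NormedSpace ℝ P]
    [NormedAddCommGroup V] [NormedSpace ℝ V] [CompleteSpace V] {W : Set (P × ℝ)} {f : P × ℝ → V}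
    (hW : IsOpen W)
    (hf : ContDiffOn ℝ 1 f W) {p : P} (hp : ∀ t ∈ Icc (0 : ℝ) 1, (p, t) ∈ W) (u : P) :
    fderiv ℝ (fun q => ∫ t in (0 : ℝ)..1, f (q, t)) p u =
        ∫ t in (0 : ℝ)..1, (fderiv ℝ f (p, t)).comp (ContinuousLinearMap.inl ℝ P ℝ) u ∧
      IntervalIntegrable (fun t => (fderiv ℝ f (p, t)).comp (ContinuousLinearMap.inl ℝ P ℝ) u)
        volume 0 1 := by
  have h1 := P267.H734.hasFDerivAt_integral hW hf hp
  have hcont : ContinuousOn (fun p => (fderiv ℝ f p).comp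
      (ContinuousLinearMap.inl ℝ P ℝ)) W :=
    (hf.continuousOn_fderiv_of_isOpen hW le_rfl).clm_comp continuousOn_const
  have hint : IntervalIntegrable (fun t => (fderiv ℝ f (p, t)).comp
      (ContinuousLinearMap.inl ℝ P ℝ)) volume 0 1 :=
    P267.H734.intervalIntegrable_section hcont hp
  refine ⟨?_, ?_⟩
  · rw [h1.fderiv, ContinuousLinearMap.intervalIntegral_apply hint u]
  · refine P267.H734.intervalIntegrable_section (W := W)
      (f := fun p => (fderiv ℝ f p).comp (ContinuousLinearMap.inl ℝ P ℝ) u) ?_ hp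
    exact hcont.clm_apply continuousOn_const

variable (x₀ : E) (a : E → E →L[ℝ] E →L[ℝ] F)

/-- The integrand of the homotopy operator. -/
def ker (p : E × ℝ) : E →L[ℝ] F := p.2 • a (x₀ + p.2 • (p.1 - x₀)) (p.1 - x₀)

/-- The domain of the integrand. -/
def dom (C : Set E) : Set (E × ℝ) := {p | x₀ + p.2 • (p.1 - x₀) ∈ C}

theorem isOpen_dom {C : Set E} (hC : IsOpen C) : IsOpen (dom x₀ C) :=
  hC.preimage (by fun_prop)

theorem mem_dom {C : Set E} (hc : Convex ℝ C) (hx : x₀ ∈ C) {z : E} (hz : z ∈ C)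
    {t : ℝ} (ht : t ∈ Icc (0 : ℝ) 1) : (z, t) ∈ dom x₀ C := by
  have := hc.add_smul_sub_mem hx hz ht
  exact this

theorem contDiffOn_ker {C : Set E} (ha : ContDiffOn ℝ ∞ a C) :
    ContDiffOn ℝ ∞ (ker x₀ a) (dom x₀ C) := by
  have h1 : ContDiffOn ℝ ∞ (fun p : E × ℝ => a (x₀ + p.2 • (p.1 - x₀))) (dom x₀ C) :=
    ha.comp (f := fun p : E × ℝ => x₀ + p.2 • (p.1 - x₀)) (by fun_prop) fun p hp => hp
  have h2 : ContDiffOn ℝ ∞ (fun p : E × ℝ => p.1 - x₀) (dom x₀ C) := by fun_prop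
  have h3 : ContDiffOn ℝ ∞ (fun p : E × ℝ => p.2) (dom x₀ C) := by fun_prop
  exact h3.smul (h1.clm_apply h2)

theorem fderiv_ker {C : Set E} (hC : IsOpen C) (ha : ContDiffOn ℝ ∞ a C) {z : E} {t : ℝ}
    (h : (z, t) ∈ dom x₀ C) (u v : E) :
    (fderiv ℝ (ker x₀ a) (z, t)).comp (ContinuousLinearMap.inl ℝ E ℝ) u v =
      t ^ 2 • fderiv ℝ a (x₀ + t • (z - x₀)) u (z - x₀) v +
        t • a (x₀ + t • (z - x₀)) u v := by
  have hd : DifferentiableAt ℝ a (x₀ + t • (z - x₀)) :=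
    (ha.differentiableOn (by simp)).differentiableAt (hC.mem_nhds h)
  have h0 : DifferentiableAt ℝ (ker x₀ a) (z, t) :=
    ((contDiffOn_ker x₀ a ha).differentiableOn (by simp)).differentiableAt
      ((isOpen_dom x₀ hC).mem_nhds h)
  have h1 : HasFDerivAt (fun y : E => ker x₀ a (y, t))
      ((fderiv ℝ (ker x₀ a) (z, t)).comp (ContinuousLinearMap.inl ℝ E ℝ)) z := by
    have := h0.hasFDerivAt.comp z (hasFDerivAt_prodMk_left (𝕜 := ℝ) z t)
    exact this
  have h2 : HasFDerivAt (fun y : E => x₀ + t • (y - x₀)) (t • ContinuousLinearMap.id ℝ E)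
      z := (((hasFDerivAt_id z).sub_const x₀).const_smul t).const_add x₀
  have h3 : HasFDerivAt (fun y : E => a (x₀ + t • (y - x₀)))
      ((fderiv ℝ a (x₀ + t • (z - x₀))).comp (t • ContinuousLinearMap.id ℝ E)) z :=
    HasFDerivAt.comp z (g := a) hd.hasFDerivAt h2
  have h4 : HasFDerivAt (fun y : E => y - x₀) (ContinuousLinearMap.id ℝ E) z :=
    (hasFDerivAt_id z).sub_const x₀
  have h5 := (h3.clm_apply h4).const_smul t
  have h6 := h1.unique h5
  rw [h6]
  simp only [ContinuousLinearMap.comp_id, smul_apply,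
    add_apply, ContinuousLinearMap.flip_apply,
    ContinuousLinearMap.comp_apply, ContinuousLinearMap.id_apply, map_smul, smul_add, smul_smul,
    pow_two]
  rw [add_comm]

/-- The homotopy operator. -/
def hom (z : E) : E →L[ℝ] F := ∫ t in (0 : ℝ)..1, ker x₀ a (z, t)

theorem contDiffOn_hom {C : Set E} (hC : IsOpen C) (hc : Convex ℝ C) (hx : x₀ ∈ C)
    (ha : ContDiffOn ℝ ∞ a C) : ContDiffOn ℝ ∞ (hom x₀ a) C :=
  P267.H734.contDiffOn_integral (isOpen_dom x₀ hC) hC (fun _ hp _ ht => mem_dom x₀ hc hx hp ht)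
    (contDiffOn_ker x₀ a ha)

theorem fderiv_hom [CompleteSpace F] {C : Set E} (hC : IsOpen C) (hc : Convex ℝ C) (hx : x₀ ∈ C)
    (ha : ContDiffOn ℝ ∞ a C) {z : E} (hz : z ∈ C) (u v : E) :
    fderiv ℝ (hom x₀ a) z u v = ∫ t in (0 : ℝ)..1,
      (t ^ 2 • fderiv ℝ a (x₀ + t • (z - x₀)) u (z - x₀) v +
        t • a (x₀ + t • (z - x₀)) u v) := by
  have hk : ContDiffOn ℝ 1 (ker x₀ a) (dom x₀ C) := (contDiffOn_ker x₀ a ha).of_le (by simp)
  have hp : ∀ t ∈ Icc (0 : ℝ) 1, (z, t) ∈ dom x₀ C := fun t ht => mem_dom x₀ hc hx hz ht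
  obtain ⟨h1, h2⟩ := fderiv_integral_apply (isOpen_dom x₀ hC) hk hp u
  have h3 : fderiv ℝ (hom x₀ a) z u = ∫ t in (0 : ℝ)..1,
      (fderiv ℝ (ker x₀ a) (z, t)).comp (ContinuousLinearMap.inl ℝ E ℝ) u := h1
  rw [h3, ContinuousLinearMap.intervalIntegral_apply h2 v]
  refine intervalIntegral.integral_congr fun t ht => ?_
  rw [uIcc_of_le zero_le_one] at ht
  exact fderiv_ker x₀ a hC ha (hp t ht) u v

/-- **The Poincaré lemma for 2-forms**, on an open convex set of a normed space. -/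
theorem poincare_two [CompleteSpace F] {C : Set E} (hC : IsOpen C) (hc : Convex ℝ C) (hx : x₀ ∈ C)
    (ha : ContDiffOn ℝ ∞ a C) (halt : ∀ z ∈ C, ∀ u v, a z u v = - a z v u)
    (hcl : ∀ z ∈ C, ∀ u v w,
      fderiv ℝ a z u v w + fderiv ℝ a z v w u + fderiv ℝ a z w u v = 0)
    {z : E} (hz : z ∈ C) (u v : E) :
    fderiv ℝ (hom x₀ a) z u v - fderiv ℝ (hom x₀ a) z v u = a z u v := by
  have hdiff : ∀ y ∈ C, DifferentiableAt ℝ a y := fun y hy =>
    (ha.differentiableOn (by simp)).differentiableAt (hC.mem_nhds hy)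
  have hp : ∀ t ∈ Icc (0 : ℝ) 1, x₀ + t • (z - x₀) ∈ C := fun t ht =>
    mem_dom x₀ hc hx hz ht
  -- the derivative of an alternating form is alternating
  have hap : ∀ y ∈ C, ∀ p q : E, HasFDerivAt (fun y => a y p q)
      (((fderiv ℝ a y).flip p).flip q) y := by
    intro y hy p q
    have h1 := (hdiff y hy).hasFDerivAt
    have h2 := h1.clm_apply (hasFDerivAt_const p y)
    have h3 := h2.clm_apply (hasFDerivAt_const q y)
    refine h3.congr_fderiv ?_
    ext w
    simp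
  have hder : ∀ y ∈ C, ∀ w p q : E, fderiv ℝ a y w p q = - fderiv ℝ a y w q p := by
    intro y hy w p q
    have h1 := hap y hy p q
    have h2 := (hap y hy q p).neg
    have h3 : (fun y => a y p q) =ᶠ[𝓝 y] fun y => - a y q p := by
      filter_upwards [hC.mem_nhds hy] with y' hy'
      exact halt y' hy' p q
    have h4 := (h1.congr_of_eventuallyEq h3.symm).unique h2
    have h5 := congrArg (fun L : E →L[ℝ] F => L w) h4
    simpa using h5
  have hcontA : ContinuousOn (fun t : ℝ => a (x₀ + t • (z - x₀))) (Icc 0 1) :=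
    ha.continuousOn.comp (by fun_prop) hp
  have hcontD : ContinuousOn (fun t : ℝ => fderiv ℝ a (x₀ + t • (z - x₀))) (Icc 0 1) :=
    (ha.continuousOn_fderiv_of_isOpen hC (by simp)).comp (by fun_prop) hp
  have hcA : ∀ p q : E, ContinuousOn (fun t : ℝ => a (x₀ + t • (z - x₀)) p q) (Icc 0 1) :=
    fun p q => (hcontA.clm_apply continuousOn_const).clm_apply continuousOn_const
  have hcD : ∀ p q r : E, ContinuousOn
      (fun t : ℝ => fderiv ℝ a (x₀ + t • (z - x₀)) p q r) (Icc 0 1) :=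
    fun p q r => ((hcontD.clm_apply continuousOn_const).clm_apply continuousOn_const).clm_apply
      continuousOn_const
  have hI : ∀ p q : E, IntervalIntegrable (fun t : ℝ =>
      (t ^ 2 • fderiv ℝ a (x₀ + t • (z - x₀)) p (z - x₀) q +
        t • a (x₀ + t • (z - x₀)) p q)) volume 0 1 := by
    intro p q
    refine ContinuousOn.intervalIntegrable ?_
    rw [uIcc_of_le zero_le_one]
    exact ((continuousOn_id.pow 2).smul (hcD p (z - x₀) q)).add (continuousOn_id.smul (hcA p q))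
  rw [fderiv_hom x₀ a hC hc hx ha hz u v, fderiv_hom x₀ a hC hc hx ha hz v u,
    ← intervalIntegral.integral_sub (hI u v) (hI v u)]
  have hFTC : ∫ t in (0 : ℝ)..1, (t ^ 2 • fderiv ℝ a (x₀ + t • (z - x₀)) (z - x₀) u v +
      (2 * t) • a (x₀ + t • (z - x₀)) u v) =
      (1 : ℝ) ^ 2 • a (x₀ + (1 : ℝ) • (z - x₀)) u v -
        (0 : ℝ) ^ 2 • a (x₀ + (0 : ℝ) • (z - x₀)) u v := by
    refine intervalIntegral.integral_eq_sub_of_hasDerivAt (f := fun t : ℝ => t ^ 2 •
      a (x₀ + t • (z - x₀)) u v) (fun t ht => ?_) ?_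
    · rw [uIcc_of_le zero_le_one] at ht
      have h1 : HasDerivAt (fun t : ℝ => x₀ + t • (z - x₀)) (z - x₀) t := by
        simpa using ((hasDerivAt_id t).smul_const (z - x₀)).const_add x₀
      have h2 := (hap _ (hp t ht) u v).comp_hasDerivAt t h1
      have h3 : HasDerivAt (fun t : ℝ => t ^ 2) (2 * t) t := by
        simpa using hasDerivAt_pow 2 t
      exact h3.smul h2
    · refine ContinuousOn.intervalIntegrable ?_
      rw [uIcc_of_le zero_le_one]
      exact ((continuousOn_id.pow 2).smul (hcD (z - x₀) u v)).add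
        ((continuousOn_const.mul continuousOn_id).smul (hcA u v))
  have hcongr : ∫ t in (0 : ℝ)..1, ((t ^ 2 • fderiv ℝ a (x₀ + t • (z - x₀)) u (z - x₀) v +
        t • a (x₀ + t • (z - x₀)) u v) - (t ^ 2 •
        fderiv ℝ a (x₀ + t • (z - x₀)) v (z - x₀) u + t • a (x₀ + t • (z - x₀)) v u)) =
      ∫ t in (0 : ℝ)..1, (t ^ 2 • fderiv ℝ a (x₀ + t • (z - x₀)) (z - x₀) u v +
      (2 * t) • a (x₀ + t • (z - x₀)) u v) := by
    refine intervalIntegral.integral_congr fun t ht => ?_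
    rw [uIcc_of_le zero_le_one] at ht
    have h1 := hcl _ (hp t ht) u v (z - x₀)
    have h2 := hder _ (hp t ht) u (z - x₀) v
    have h3 := halt _ (hp t ht) v u
    have h4 : fderiv ℝ a (x₀ + t • (z - x₀)) (z - x₀) u v =
        - fderiv ℝ a (x₀ + t • (z - x₀)) u v (z - x₀) -
          fderiv ℝ a (x₀ + t • (z - x₀)) v (z - x₀) u := by
      rw [← sub_eq_zero, ← h1]; abel
    rw [h3, h2, h4]
    module
  rw [hcongr, hFTC]
  simp

end

/-- **A3** (statement of `H64/TS/Spec.lean`): the Poincaré lemma in degrees 2 and 1. -/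
theorem poinStmt : H64.TK.TS.PoinStmt := by
  refine ⟨fun d C hC hc a ha halt hcl => ?_, fun d C hC hc b hb hd =>
    poincare_one hC hc hb hd⟩
  rcases C.eq_empty_or_nonempty with rfl | ⟨x₀, hx⟩
  · exact ⟨fun _ => 0, contDiffOn_const, fun z hz => absurd hz (notMem_empty z)⟩
  · exact ⟨hom x₀ a, contDiffOn_hom x₀ a hC hc hx ha, fun z hz u v =>
      poincare_two x₀ a hC hc hx ha halt hcl hz u v⟩

end Vale.Agent.P281.H352.TS
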